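import Vale.Agent.P372.H268.Final
import Vale.Agent.P372.Lim.Defs
import Vale.Agent.P372.Lim.Final
import Vale.Agent.P372.Metro.Defs
import Vale.Agent.P372.Metro.Equiv2

open Matrix Kronecker
open scoped ComplexOrder MatrixOrder

namespace Vale.Agent.Results.P372.AllCombined

open Vale.Agent.P372

theorem keyPos_dims'' (a b : ℕ) (ha : 2 ≤ a) (hb : 2 ≤ b) (hab : 6 < a * b) :
    ∃ ρ : Matrix (Fin a × Fin b) (Fin a × Fin b) ℂ,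
      ρ.PosDef ∧ (pTrans ρ).PosDef ∧ ρ.trace = 1 ∧ KeyPos ρ := by
  obtain ⟨ρ, σ, h1, h2, h3, h4, h5⟩ := keyPos_dims' a b ha hb hab
  have e : σ = pTrans ρ := by
    funext p q
    exact h3 p.1 p.2 q.1 q.2
  exact ⟨ρ, h1, e ▸ h2, h4, h5⟩

theorem result :
    -- (1) key distillation is equivalent to metrological usefulness of filtered copies
    (∀ (A B E : Type) [Fintype A] [DecidableEq A] [Fintype B] [DecidableEq B] [Fintype E]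
      [DecidableEq E] (Ψ : Matrix (A × B) E ℂ), (Ψ * Ψᴴ).trace = 1 →
      (∀ r : ℝ, 8 ≤ r → r < 16 →
        (0 < distillableKey Ψ ↔ ∃ (n : ℕ) (C D : Type) (_ : Fintype C) (_ : DecidableEq C)
          (_ : Fintype D) (_ : DecidableEq D) (X : Matrix C (Fin n → A) ℂ)
          (Y : Matrix D (Fin n → B) ℂ) (a : Matrix C C ℂ) (b : Matrix D D ℂ), 1 ≤ n ∧
          (1 - a).PosSemidef ∧ (1 + a).PosSemidef ∧ (1 - b).PosSemidef ∧ (1 + b).PosSemidef ∧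
          r * (filtered n (Ψ * Ψᴴ) X Y).trace.re <
            qfi (filtered n (Ψ * Ψᴴ) X Y) (a ⊗ₖ 1 + 1 ⊗ₖ b))) ∧
      (∀ c : ℝ, 0 < c → c ≤ 1 / 2 →
        (0 < distillableKey Ψ ↔ ∃ (n : ℕ) (C D : Type) (_ : Fintype C) (_ : DecidableEq C)
          (_ : Fintype D) (_ : DecidableEq D) (X : Matrix C (Fin n → A) ℂ)
          (Y : Matrix D (Fin n → B) ℂ) (a : Matrix C C ℂ) (b : Matrix D D ℂ), 1 ≤ n ∧
          a.IsHermitian ∧ b.IsHermitian ∧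
          4 * ((filtered n (Ψ * Ψᴴ) X Y *
            ((a ⊗ₖ 1 + 1 ⊗ₖ b) * (a ⊗ₖ 1 + 1 ⊗ₖ b) - (4 * c : ℂ) • (a ⊗ₖ b))).trace.re) <
            qfi (filtered n (Ψ * Ψᴴ) X Y) (a ⊗ₖ 1 + 1 ⊗ₖ b))) ∧
      (∀ c : ℝ, 0 < c → c ≤ 1 / 2 →
        (0 < distillableKey Ψ ↔ ∃ (n : ℕ) (X₀ X₁ : Matrix (Fin n → A) (Fin n → A) ℂ)
          (Y₀ Y₁ : Matrix (Fin n → B) (Fin n → B) ℂ),
          (weight (tpow n (Ψ * Ψᴴ)) X₀ Y₁ * weight (tpow n (Ψ * Ψᴴ)) X₁ Y₀) ^ c *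
            (weight (tpow n (Ψ * Ψᴴ)) X₀ Y₀ * weight (tpow n (Ψ * Ψᴴ)) X₁ Y₁) ^ (1 - c) <
            traceNorm ((X₀ ⊗ₖ Y₀) * (tpow n (Ψ * Ψᴴ)) * (X₁ ⊗ₖ Y₁)ᴴ) ^ 2))) ∧
    -- (2) states with distillable key
    (∀ (A : Type) [Fintype A] (ρ : Matrix (A × Fin 3) (A × Fin 3) ℂ), ρ.trace = 1 →
      (∀ (α : A → ℂ) (β : Fin 3 → ℂ), (∀ (a : A → ℂ) (b : Fin 3 → ℂ),
        (∀ p, (ρ *ᵥ prodVec a b) p = 0) → sprod (prodVec a b) (prodVec α β) = 0) →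
          ∀ p, prodVec α β p = 0) → KeyPos ρ) ∧
    (∀ (c : Fin 3 → Fin 3 → ℝ) (s : ℝ), (∀ i j, 0 ≤ c i j) → ((s : ℂ) • cycState c).trace = 1 →
      ¬ IsSep ((s : ℂ) • cycState c) → KeyPos ((s : ℂ) • cycState c)) ∧
    (∀ a b : ℕ, 2 ≤ a → 2 ≤ b → 6 < a * b → ∃ ρ : Matrix (Fin a × Fin b) (Fin a × Fin b) ℂ,
      ρ.PosDef ∧ (pTrans ρ).PosDef ∧ ρ.trace = 1 ∧ KeyPos ρ) ∧
    -- (3) in each copy one party measures its letter; both shields are arbitrary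
    (∀ d : ℕ, 2 ≤ d →
      ∃ ρ : Matrix ((Fin 3 × Fin d) × (Fin 3 × Fin d)) ((Fin 3 × Fin d) × (Fin 3 × Fin d)) ℂ,
        ρ.PosDef ∧ (pTrans ρ).PosDef ∧ ρ.trace = 1 ∧ ¬ IsSep ρ ∧
        (∀ (n : ℕ) (S : Set (Fin n))
          (X₀ X₁ Y₀ Y₁ : Matrix (Fin n → Fin 3 × Fin d) (Fin n → Fin 3 × Fin d) ℂ),
          LetterDiag S (X₀ᴴ * X₀) → LetterDiag S (X₁ᴴ * X₁) → LetterDiag Sᶜ (Y₀ᴴ * Y₀) →
          LetterDiag Sᶜ (Y₁ᴴ * Y₁) → traceNorm ((X₀ ⊗ₖ Y₀) * tpow n ρ * (X₁ ⊗ₖ Y₁)ᴴ) ^ 4 ≤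
            weight (tpow n ρ) X₀ Y₀ * weight (tpow n ρ) X₀ Y₁ * weight (tpow n ρ) X₁ Y₀ *
              weight (tpow n ρ) X₁ Y₁) ∧
        ∀ (E : Type) [Fintype E] [DecidableEq E]
          (Ψ : Matrix ((Fin 3 × Fin d) × (Fin 3 × Fin d)) E ℂ),
          Ψ * Ψᴴ = ρ → ∀ (n ℓ : ℕ), 0 < ℓ → ∀ (T : Type) [Fintype T]
            (f g : T → (Fin ℓ → Bool) →
              Matrix (Fin n → Fin 3 × Fin d) (Fin n → Fin 3 × Fin d) ℂ),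
            LOCC (Fin ℓ → Bool) (Fin n → Fin 3 × Fin d) (Fin n → Fin 3 × Fin d) T f g →
            (∀ t, ∃ S : Set (Fin n), (∀ k, LetterDiag S (f t k)) ∧
              ∀ k, LetterDiag Sᶜ (g t k)) →
            ¬ KeyError f g (copies n Ψ) (1 / 64)) ∧
    -- (4) PPT entangled states, blocks of `N` copies, limited operators or limited memory
    (∀ (d k : ℕ) (s : ℝ), 2 ≤ k → k < d → (k : ℝ) * d - 1 < s * (k + 1) * (d - 1) → s < 1 →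
      (pptState d k s).PosDef ∧ (pTrans (pptState d k s)).PosDef ∧ (pptState d k s).trace = 1 ∧
      ¬ IsSep (pptState d k s) ∧
      ∀ (E : Type) [Fintype E] [DecidableEq E]
        (Ψ : Matrix ((Fin d × Fin k) × (Fin d × Fin k)) E ℂ), Ψ * Ψᴴ = pptState d k s →
        ∀ (n N ℓ : ℕ), 0 < N → ∀ (T : Type) [Fintype T]
          (f g : T → (Fin ℓ → Bool) →
            Matrix (Fin n → Fin N → Fin d × Fin k) (Fin n → Fin N → Fin d × Fin k) ℂ) (ε : ℝ),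
          LOCC (Fin ℓ → Bool) (Fin n → Fin N → Fin d × Fin k) (Fin n → Fin N → Fin d × Fin k)
            T f g →
          KeyError f g (copies n (copies N Ψ)) ε →
          (∀ D M : ℕ, 4 * N * (D + 1) ≤ k →
            (∀ τ, ∀ a b, a ≠ b → ∃ C : Finset (Fin n), C.card ≤ M ∧ ∀ j ∉ C,
              BlockLowRank D j (f τ a) (f τ b) ∨ BlockLowRank D j (g τ a) (g τ b)) →
            (2 ^ ℓ - 1) * (1 - ε) ≤ ((k + 2 * s) / (k - 2 * s)) ^ (N * M) * ε) ∧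
          (∀ χ : ℕ, 4 * N * (2 * χ ^ 2 + 1) ≤ k →
            (∀ τ, (∀ a, BondDim χ (f τ a)) ∨ ∀ a, BondDim χ (g τ a)) →
            (2 ^ ℓ - 1) * (1 - ε) ≤ ε)) :=
  ⟨fun _ _ _ _ _ _ _ _ _ Ψ hΨ => ⟨fun _ h h' => Metro.useful_iff Ψ hΨ h h',
      fun _ h h' => Metro.cov_iff Ψ hΨ h h', fun _ h h' => Metro.test_iff Ψ hΨ h h'⟩,
    keyPos_kernel', keyPos_cyc, keyPos_dims'', fun d hd => LD.ppt_letter d hd,
    fun d k s hk hd h hs => Lim.ppt_key d k s hk hd h hs⟩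

end Vale.Agent.Results.P372.AllCombined
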