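import Vale.Agent.P372.H268.Final
import Vale.Agent.P372.Metro.Defs
import Vale.Agent.P372.Metro.Equiv2
import Vale.Agent.P372.R2.helper492.Ou.Eq3

open Matrix Kronecker
open scoped ComplexOrder MatrixOrder

namespace Vale.Agent.Results.P372.AllResults

open Vale.Agent.P372

theorem keyPos_dims'' (a b : ℕ) (ha : 2 ≤ a) (hb : 2 ≤ b) (hab : 6 < a * b) :
    ∃ ρ : Matrix (Fin a × Fin b) (Fin a × Fin b) ℂ,
      ρ.PosDef ∧ (pTrans ρ).PosDef ∧ ρ.trace = 1 ∧ KeyPos ρ := by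
  obtain ⟨ρ, σ, h1, h2, h3, h4, h5⟩ := keyPos_dims' a b ha hb hab
  have e : σ = pTrans ρ := by
    funext p q
    exact h3 p.1 p.2 q.1 q.2
  exact ⟨ρ, h1, e ▸ h2, h4, h5⟩

theorem result :
    -- (1) key iff filtered copies are metrologically useful; zero key iff zero key after noise
    (∀ (A B E : Type) [Fintype A] [DecidableEq A] [Fintype B] [DecidableEq B] [Fintype E]
      [DecidableEq E] (Ψ : Matrix (A × B) E ℂ), (Ψ * Ψᴴ).trace = 1 →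
      (∀ r : ℝ, 8 ≤ r → r < 16 →
        (0 < distillableKey Ψ ↔ ∃ (n : ℕ) (C D : Type) (_ : Fintype C) (_ : DecidableEq C)
          (_ : Fintype D) (_ : DecidableEq D) (X : Matrix C (Fin n → A) ℂ)
          (Y : Matrix D (Fin n → B) ℂ) (a : Matrix C C ℂ) (b : Matrix D D ℂ), 1 ≤ n ∧
          (1 - a).PosSemidef ∧ (1 + a).PosSemidef ∧ (1 - b).PosSemidef ∧ (1 + b).PosSemidef ∧
          r * (filtered n (Ψ * Ψᴴ) X Y).trace.re <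
            qfi (filtered n (Ψ * Ψᴴ) X Y) (a ⊗ₖ 1 + 1 ⊗ₖ b))) ∧
      ∀ m : ℕ, 1 ≤ m → ∀ t : ℝ, t ≤ 1 → (¬ 0 < distillableKey Ψ ↔
        ∀ η : ℝ, 0 < η → η ≤ 1 → NoKeyAfter (Ψ * Ψᴴ) m η t)) ∧
    -- (2) states with distillable key
    (∀ (A : Type) [Fintype A] (ρ : Matrix (A × Fin 3) (A × Fin 3) ℂ), ρ.trace = 1 →
      (∀ (α : A → ℂ) (β : Fin 3 → ℂ), (∀ (a : A → ℂ) (b : Fin 3 → ℂ),
        (∀ p, (ρ *ᵥ prodVec a b) p = 0) → sprod (prodVec a b) (prodVec α β) = 0) →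
          ∀ p, prodVec α β p = 0) → KeyPos ρ) ∧
    (∀ a b : ℕ, 2 ≤ a → 2 ≤ b → 6 < a * b → ∃ ρ : Matrix (Fin a × Fin b) (Fin a × Fin b) ℂ,
      ρ.PosDef ∧ (pTrans ρ).PosDef ∧ ρ.trace = 1 ∧ KeyPos ρ) ∧
    -- (3) states without key after noise
    (∀ g k m : ℕ, 0 < g → 2 * m + 2 ≤ k → ∃ C : ℝ, 0 < C ∧ ∀ η : ℝ, 0 < η → η ≤ 1 →
      ∀ t : ℝ, 0 < t → t ≤ 1 →
      ∀ ρ : Matrix ((Fin g × Fin k) × (Fin g × Fin k)) ((Fin g × Fin k) × (Fin g × Fin k)) ℂ,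
        ρ.PosSemidef → ρ.trace = 1 → (∀ p q, ‖ρ p q - sepState g k p q‖ ≤ C * η * t) →
        NoKeyAfter ρ m η t) ∧
    (∀ g k : ℕ, 0 < g → 2 ≤ k → IsSep (sepState g k) ∧ ∀ δ : ℝ, 0 < δ →
      ∃ ρ : Matrix ((Fin g × Fin k) × (Fin g × Fin k)) ((Fin g × Fin k) × (Fin g × Fin k)) ℂ,
        ρ.PosDef ∧ ρ.trace = 1 ∧ (∀ p q, ‖ρ p q - sepState g k p q‖ ≤ δ) ∧ ¬ IsSep ρ) ∧
    (∀ g k : ℕ, 2 ≤ k → k < g → ∀ δ : ℝ, 0 < δ →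
      ∃ ρ : Matrix ((Fin g × Fin k) × (Fin g × Fin k)) ((Fin g × Fin k) × (Fin g × Fin k)) ℂ,
        ρ.PosDef ∧ (pTrans ρ).PosDef ∧ ρ.trace = 1 ∧
        (∀ p q, ‖ρ p q - sepState g k p q‖ ≤ δ) ∧ ¬ IsSep ρ) ∧
    -- (4) bound information
    (∀ g k : ℕ, 0 < g → 4 ≤ k →
      ∃ (M : ℕ) (P : Fin M → Matrix (Fin g × Fin k) (Fin g × Fin k) ℂ), IsMeas P ∧
      ∃ δ : ℝ, 0 < δ ∧
        ∀ ρ : Matrix ((Fin g × Fin k) × (Fin g × Fin k)) ((Fin g × Fin k) × (Fin g × Fin k)) ℂ,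
          ρ.PosSemidef → ρ.trace = 1 → (∀ p q, ‖ρ p q - sepState g k p q‖ ≤ δ) → ¬ IsSep ρ →
          BoundInfo ρ P P) := by
  refine ⟨fun A B E _ _ _ _ _ _ Ψ hΨ => ⟨fun _ h h' => Metro.useful_iff Ψ hΨ h h',
      fun m hm t ht => (Ou.equivs A B E Ψ hΨ m hm).1 t ht⟩,
    keyPos_kernel', keyPos_dims'',
    fun g k m hg hk => Ou.after_entries g k m hg hk,
    fun g k hg hk => ⟨Ou.sep_sepState hg hk, fun δ hδ => Ou.near_ent hg hk hδ⟩,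
    fun g k hk hgk δ hδ => ?_, fun g k hg hk => Ou.bound_info g k hg hk⟩
  obtain ⟨ρ, h1, h2, h3, h4, h5⟩ := Ou.near_ppt hk hgk hδ
  exact ⟨ρ, h1, h2, h3, h4, h5⟩

end Vale.Agent.Results.P372.AllResults
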