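import Vale.Agent.P372.BF.Defs
import Vale.Agent.P372.BF.MsgDefs
import Vale.Agent.P372.BF.Msgs

open Matrix Kronecker
open scoped ComplexOrder MatrixOrder

namespace Vale.Agent.Results.P372.BlockFilters

open Vale.Agent.P372

theorem result :
    -- (1) PPT entangled states without key if Bob announces at most `log₂ C` bits
    (∀ C : ℕ, 0 < C → ∃ (A : Type) (_ : Fintype A) (_ : DecidableEq A)
      (ρ : Matrix (A × A) (A × A) ℂ), ρ.PosDef ∧ (pTrans ρ).PosDef ∧ ρ.trace = 1 ∧ ¬ IsSep ρ ∧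
      ∀ (E : Type) [Fintype E] [DecidableEq E] (Ψ : Matrix (A × A) E ℂ), Ψ * Ψᴴ = ρ →
        ∀ (n ℓ : ℕ), 0 < ℓ → ∀ (T : Type) [Fintype T]
          (f g : T → (Fin ℓ → Bool) → Matrix (Fin n → A) (Fin n → A) ℂ) (ε : ℝ), ε < 1 / 8 →
          LOCCm (Fin ℓ → Bool) C (Fin n → A) (Fin n → A) T f g →
          ¬ KeyError f g (copies n Ψ) ε) ∧
    -- (2) all states close to the maximally mixed one
    (∀ (A B E : Type) [Fintype A] [DecidableEq A] [Fintype B] [DecidableEq B] [Fintype E]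
      [DecidableEq E] (ρ : Matrix (A × B) (A × B) ℂ) (lo hi : ℝ), ρ.trace = 1 →
      0 < lo → (ρ - (lo : ℂ) • 1).PosSemidef → ((hi : ℂ) • 1 - ρ).PosSemidef →
      ∀ Ψ : Matrix (A × B) E ℂ, Ψ * Ψᴴ = ρ → ∀ (n ℓ : ℕ) (T : Type) [Fintype T]
        (f : T → (Fin ℓ → Bool) → Matrix (Fin n → A) (Fin n → A) ℂ)
        (g : T → (Fin ℓ → Bool) → Matrix (Fin n → B) (Fin n → B) ℂ) (ε : ℝ),
        LOCC (Fin ℓ → Bool) (Fin n → A) (Fin n → B) T f g → KeyError f g (copies n Ψ) ε →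
        (∀ (N M : ℕ) (c : ℝ), hi ^ N ≤ 2 * lo ^ N → 0 < c →
          (∀ t, NearBlockProd N M c (∑ k, f t k) ∨ NearBlockProd N M c (∑ k, g t k)) →
          1 - ε ≤ c * (hi / lo) ^ M * ((2 ^ ℓ)⁻¹ + ε)) ∧
        (∀ (N K : ℕ) (γ : T → ℝ), K * hi ^ N ≤ (K + 1) * lo ^ N →
          (∀ t, Dominated N ρ (∑ k, f t k) (∑ k, g t k) (γ t)) →
          1 - ε ≤ (2 ^ ℓ)⁻¹ + ε + (∑ t, γ t) / (K + 1)) ∧
        ∀ (K : ℕ) (Γ : ℝ), K * hi ≤ (K + 1) * lo →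
          ((Γ : ℂ) • 1 - ∑ t, ∑ k, f t k).PosSemidef ∨
            ((Γ : ℂ) • 1 - ∑ t, ∑ k, g t k).PosSemidef →
          1 - ε ≤ (2 ^ ℓ)⁻¹ + ε + Γ / (K + 1)) ∧
    -- (3) PPT entangled states for blocks of any length
    (∀ (d k : ℕ) (s : ℝ), 2 ≤ k → k < d → (k : ℝ) * d - 1 < s * (k + 1) * (d - 1) → s < 1 →
      (pptState d k s).PosDef ∧ (pTrans (pptState d k s)).PosDef ∧ (pptState d k s).trace = 1 ∧
      ¬ IsSep (pptState d k s) ∧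
      ∀ (E : Type) [Fintype E] [DecidableEq E]
        (Ψ : Matrix ((Fin d × Fin k) × (Fin d × Fin k)) E ℂ), Ψ * Ψᴴ = pptState d k s →
        ∀ (n ℓ : ℕ) (T : Type) [Fintype T]
          (f g : T → (Fin ℓ → Bool) →
            Matrix (Fin n → Fin d × Fin k) (Fin n → Fin d × Fin k) ℂ) (ε : ℝ),
          LOCC (Fin ℓ → Bool) (Fin n → Fin d × Fin k) (Fin n → Fin d × Fin k) T f g →
          KeyError f g (copies n Ψ) ε →
          (∀ (N M : ℕ) (c : ℝ), 0 < N → 8 * N ≤ k → 0 < c →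
            (∀ t, NearBlockProd N M c (∑ k, f t k) ∨ NearBlockProd N M c (∑ k, g t k)) →
            1 - ε ≤ c * ((k + 2 * s) / (k - 2 * s)) ^ M * ((2 ^ ℓ)⁻¹ + ε)) ∧
          (∀ (N K : ℕ) (γ : T → ℝ), 0 < N → 4 * N * (K + 1) ≤ k →
            (∀ t, Dominated N (pptState d k s) (∑ k, f t k) (∑ k, g t k) (γ t)) →
            1 - ε ≤ (2 ^ ℓ)⁻¹ + ε + (∑ t, γ t) / (K + 1)) ∧
          ∀ (K : ℕ) (Γ : ℝ), 4 * (K + 1) ≤ k →
            ((Γ : ℂ) • 1 - ∑ t, ∑ k, f t k).PosSemidef ∨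
              ((Γ : ℂ) • 1 - ∑ t, ∑ k, g t k).PosSemidef →
            1 - ε ≤ (2 ^ ℓ)⁻¹ + ε + Γ / (K + 1)) ∧
    -- (4) for all states: the key is zero if and only if this holds for all numbers of messages,
    -- if and only if it holds for blocks of all lengths
    (∀ (A B E : Type) [Fintype A] [DecidableEq A] [Fintype B] [DecidableEq B] [Fintype E]
      [DecidableEq E] (Ψ : Matrix (A × B) E ℂ), (Ψ * Ψᴴ).trace = 1 →
      (0 < distillableKey Ψ ↔ ∃ (C n ℓ : ℕ) (T : Type) (_ : Fintype T)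
        (f : T → (Fin ℓ → Bool) → Matrix (Fin n → A) (Fin n → A) ℂ)
        (g : T → (Fin ℓ → Bool) → Matrix (Fin n → B) (Fin n → B) ℂ), 0 < ℓ ∧
        LOCCm (Fin ℓ → Bool) C (Fin n → A) (Fin n → B) T f g ∧
        KeyError f g (copies n Ψ) (1 / 64)) ∧
      ∀ (M : ℕ) (c : ℝ), 1 ≤ c →
      (0 < distillableKey Ψ ↔ ∃ (N n ℓ : ℕ) (T : Type) (_ : Fintype T)
        (f : T → (Fin ℓ → Bool) → Matrix (Fin n → A) (Fin n → A) ℂ)
        (g : T → (Fin ℓ → Bool) → Matrix (Fin n → B) (Fin n → B) ℂ), 0 < ℓ ∧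
        LOCC (Fin ℓ → Bool) (Fin n → A) (Fin n → B) T f g ∧
        (∀ t, NearBlockProd N M c (∑ k, f t k) ∨ NearBlockProd N M c (∑ k, g t k)) ∧
        KeyError f g (copies n Ψ) (1 / 64))) := by
  refine ⟨fun C hC => BF.few_bits C hC, fun A B E _ _ _ _ _ _ ρ lo hi htr hlo h1 h2 Ψ hΨ n ℓ T _ f g ε hL herr =>
      ⟨fun N M c hN hc hprod =>
        BF.near_filters htr hlo h1 h2 hN hc Ψ hΨ n ℓ T f g ε hL hprod herr,
      fun N K γ hN hprod =>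
        BF.multi_filters htr hlo h1 h2 hN Ψ hΨ n ℓ T f g γ ε hL hprod herr,
      fun K Γ hN hf => BF.few_messages htr hlo h1 h2 hN Ψ hΨ n ℓ T f g Γ ε hL hf herr⟩,
    fun d k s hk hd h hs => ?_,
    fun _ _ _ _ _ _ _ _ _ Ψ h => ⟨BF.equiv_msgs Ψ h, fun M _ hc => BF.equiv Ψ h M hc⟩⟩
  obtain ⟨h1, h2, h3, h4, h5⟩ := BF.ppt_filters d k s hk hd h hs
  exact ⟨h1, h2, h3, h4, fun E _ _ Ψ hΨ n ℓ T _ f g ε hL herr =>
    ⟨fun N M c hN hNk hc hprod => h5 E Ψ hΨ N M c hN hNk hc n ℓ T f g ε hL hprod herr,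
      fun N K γ hN hNk hprod =>
        BF.ppt_multi d k s hk hd h hs E Ψ hΨ N K hN hNk n ℓ T f g γ ε hL hprod herr,
      fun K Γ hK hf => BF.ppt_few d k s hk hd h hs E Ψ hΨ K hK n ℓ T f g Γ ε hL hf herr⟩⟩

end Vale.Agent.Results.P372.BlockFilters
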