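import Vale.Agent.P372.R2.helper492.Ou.Eq3

open Matrix Kronecker
open scoped ComplexOrder

namespace Vale.Agent.Results.P372.LetterDiagonal

open Vale.Agent.P372

theorem result :
    (∀ (A B E : Type) [Fintype A] [DecidableEq A] [Fintype B] [DecidableEq B] [Fintype E]
      [DecidableEq E] (Ψ : Matrix (A × B) E ℂ), (Ψ * Ψᴴ).trace = 1 → ∀ m : ℕ, 1 ≤ m →
      (∀ t : ℝ, t ≤ 1 → (¬ 0 < distillableKey Ψ ↔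
        ∀ η : ℝ, 0 < η → η ≤ 1 → NoKeyAfter (Ψ * Ψᴴ) m η t)) ∧
      (¬ 0 < distillableKey Ψ ↔ ∀ M N : ℕ, NoKeyMenu (tpow N (Ψ * Ψᴴ)) M m)) ∧
    (∀ g k m : ℕ, 0 < g → 2 * m + 2 ≤ k → ∃ C : ℝ, 0 < C ∧ ∀ η : ℝ, 0 < η → η ≤ 1 →
      ∀ t : ℝ, 0 < t → t ≤ 1 →
      ∀ ρ : Matrix ((Fin g × Fin k) × (Fin g × Fin k)) ((Fin g × Fin k) × (Fin g × Fin k)) ℂ,
        ρ.PosSemidef → ρ.trace = 1 → (∀ p q, ‖ρ p q - sepState g k p q‖ ≤ C * η * t) →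
        NoKeyAfter ρ m η t) ∧
    (∀ g k m M N : ℕ, 0 < g → 2 * m + 2 ≤ k → ∃ δ : ℝ, 0 < δ ∧
      ∀ ρ : Matrix ((Fin g × Fin k) × (Fin g × Fin k)) ((Fin g × Fin k) × (Fin g × Fin k)) ℂ,
        ρ.PosSemidef → ρ.trace = 1 → (∀ p q, ‖ρ p q - sepState g k p q‖ ≤ δ) →
        NoKeyMenu (tpow N ρ) M m) ∧
    (∀ g k : ℕ, 0 < g → 2 ≤ k → IsSep (sepState g k) ∧ ∀ δ : ℝ, 0 < δ →
      ∃ ρ : Matrix ((Fin g × Fin k) × (Fin g × Fin k)) ((Fin g × Fin k) × (Fin g × Fin k)) ℂ,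
        ρ.PosDef ∧ ρ.trace = 1 ∧ (∀ p q, ‖ρ p q - sepState g k p q‖ ≤ δ) ∧ ¬ IsSep ρ) ∧
    (∀ g k : ℕ, 2 ≤ k → k < g → ∀ δ : ℝ, 0 < δ →
      ∃ ρ : Matrix ((Fin g × Fin k) × (Fin g × Fin k)) ((Fin g × Fin k) × (Fin g × Fin k)) ℂ,
        ρ.PosDef ∧ (pTrans ρ).PosDef ∧ ρ.trace = 1 ∧
        (∀ p q, ‖ρ p q - sepState g k p q‖ ≤ δ) ∧ ¬ IsSep ρ) ∧
    (∀ g k : ℕ, 0 < g → 4 ≤ k →
      ∃ (M : ℕ) (P : Fin M → Matrix (Fin g × Fin k) (Fin g × Fin k) ℂ), IsMeas P ∧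
      ∃ δ : ℝ, 0 < δ ∧
        ∀ ρ : Matrix ((Fin g × Fin k) × (Fin g × Fin k)) ((Fin g × Fin k) × (Fin g × Fin k)) ℂ,
          ρ.PosSemidef → ρ.trace = 1 → (∀ p q, ‖ρ p q - sepState g k p q‖ ≤ δ) → ¬ IsSep ρ →
          BoundInfo ρ P P) := by
  refine ⟨fun A B E _ _ _ _ _ _ Ψ h1 m hm => Ou.equivs A B E Ψ h1 m hm,
    fun g k m hg hk => Ou.after_entries g k m hg hk,
    fun g k m M N hg hk => Ou.nb_entries g k m M N hg hk,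
    fun g k hg hk => ⟨Ou.sep_sepState hg hk, fun δ hδ => Ou.near_ent hg hk hδ⟩,
    fun g k hk hgk δ hδ => ?_, fun g k hg hk => Ou.bound_info g k hg hk⟩
  obtain ⟨ρ, h1, h2, h3, h4, h5⟩ := Ou.near_ppt hk hgk hδ
  exact ⟨ρ, h1, h2, h3, h4, h5⟩

end Vale.Agent.Results.P372.LetterDiagonal
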