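import Vale.Agent.P372.Lim.Defs
import Vale.Agent.P372.Lim.Final

open Matrix Kronecker
open scoped ComplexOrder MatrixOrder

namespace Vale.Agent.Results.P372.LimitedCopies

open Vale.Agent.P372

theorem result :
    -- (1) PPT entangled states, blocks of `N` copies
    (∀ (d k : ℕ) (s : ℝ), 2 ≤ k → k < d → (k : ℝ) * d - 1 < s * (k + 1) * (d - 1) → s < 1 →
      (pptState d k s).PosDef ∧ (pTrans (pptState d k s)).PosDef ∧ (pptState d k s).trace = 1 ∧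
      ¬ IsSep (pptState d k s) ∧
      ∀ (E : Type) [Fintype E] [DecidableEq E]
        (Ψ : Matrix ((Fin d × Fin k) × (Fin d × Fin k)) E ℂ), Ψ * Ψᴴ = pptState d k s →
        ∀ (n N ℓ : ℕ), 0 < N → ∀ (T : Type) [Fintype T]
          (f g : T → (Fin ℓ → Bool) →
            Matrix (Fin n → Fin N → Fin d × Fin k) (Fin n → Fin N → Fin d × Fin k) ℂ) (ε : ℝ),
          LOCC (Fin ℓ → Bool) (Fin n → Fin N → Fin d × Fin k) (Fin n → Fin N → Fin d × Fin k)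
            T f g →
          KeyError f g (copies n (copies N Ψ)) ε →
          (∀ D M : ℕ, 4 * N * (D + 1) ≤ k →
            (∀ τ, ∀ a b, a ≠ b → ∃ C : Finset (Fin n), C.card ≤ M ∧ ∀ j ∉ C,
              BlockLowRank D j (f τ a) (f τ b) ∨ BlockLowRank D j (g τ a) (g τ b)) →
            (2 ^ ℓ - 1) * (1 - ε) ≤ ((k + 2 * s) / (k - 2 * s)) ^ (N * M) * ε) ∧
          (∀ χ : ℕ, 4 * N * (2 * χ ^ 2 + 1) ≤ k →
            (∀ τ, (∀ a, BondDim χ (f τ a)) ∨ ∀ a, BondDim χ (g τ a)) →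
            (2 ^ ℓ - 1) * (1 - ε) ≤ ε)) ∧
    -- (2) Werner states, single copies
    (∀ (d D : ℕ) (t : ℝ), 1 < d * t → t * (1 + (1 + √2) * √D) < 1 →
      (wernerState d t).PosDef ∧ (wernerState d t).trace = 1 ∧ ¬ IsSep (wernerState d t) ∧
      ∀ (E : Type) [Fintype E] [DecidableEq E] (Ψ : Matrix (Fin d × Fin d) E ℂ),
        Ψ * Ψᴴ = wernerState d t → ∀ (n N ℓ : ℕ) (T : Type) [Fintype T]
          (f g : T → (Fin ℓ → Bool) → Matrix (Fin n → Fin d) (Fin n → Fin d) ℂ) (ε : ℝ),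
          LOCC (Fin ℓ → Bool) (Fin n → Fin d) (Fin n → Fin d) T f g →
          (∀ τ, ∀ a b, a ≠ b → ∃ C : Finset (Fin n), C.card ≤ N ∧ ∀ k ∉ C,
            (LowRank D k (f τ a) (f τ b) ∨ LowRank D k (g τ a) (g τ b)) ∨
            d * t ≤ 1 + (d - 2) * t ^ 2 ∧ (BlockDiag k (f τ a) (f τ b) ∨
              BlockDiag k (g τ a) (g τ b))) →
          KeyError f g (copies n Ψ) ε → (2 ^ ℓ - 1) * (1 - ε) ≤ ((1 + t) / (1 - t)) ^ N * ε) ∧
    -- (3) all states near the maximally mixed one, blocks of `N` copies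
    (∀ (A B : Type) [Fintype A] [DecidableEq A] [Fintype B] [DecidableEq B]
      (ρ : Matrix (A × B) (A × B) ℂ) (lo hi : ℝ) (D N : ℕ), ρ.trace = 1 → 0 < lo →
      (ρ - (lo : ℂ) • 1).PosSemidef → ((hi : ℂ) • 1 - ρ).PosSemidef →
      D * hi ^ N ≤ (D + 1) * lo ^ N →
      ∀ (E : Type) [Fintype E] [DecidableEq E] (Ψ : Matrix (A × B) E ℂ),
        Ψ * Ψᴴ = ρ → ∀ (n M ℓ : ℕ) (T : Type) [Fintype T]
          (f : T → (Fin ℓ → Bool) → Matrix (Fin n → Fin N → A) (Fin n → Fin N → A) ℂ)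
          (g : T → (Fin ℓ → Bool) → Matrix (Fin n → Fin N → B) (Fin n → Fin N → B) ℂ) (ε : ℝ),
          LOCC (Fin ℓ → Bool) (Fin n → Fin N → A) (Fin n → Fin N → B) T f g →
          (∀ τ, ∀ a b, a ≠ b → ∃ C : Finset (Fin n), C.card ≤ M ∧ ∀ j ∉ C,
            BlockLowRank D j (f τ a) (f τ b) ∨ BlockLowRank D j (g τ a) (g τ b)) →
          KeyError f g (copies n (copies N Ψ)) ε →
          (2 ^ ℓ - 1) * (1 - ε) ≤ (hi / lo) ^ (N * M) * ε) :=
  ⟨fun d k s hk hd h hs => Lim.ppt_key d k s hk hd h hs,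
    fun d D t h1 h2 => Lim.limited_copies d D t h1 h2,
    fun A B _ _ _ _ ρ lo hi D N htr hlo h1 h2 hD E _ _ Ψ hΨ n M ℓ T _ f g ε hL hlim herr =>
      Lim.near_blocks htr hlo h1 h2 hD E Ψ hΨ n M ℓ T f g ε hL hlim herr⟩

end Vale.Agent.Results.P372.LimitedCopies
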