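import Vale.Agent.P372.R2.helper492.SiteRes

open Matrix
open scoped ComplexOrder

namespace Vale.Agent.Results.P372.MeasuredCopies

open Vale.Agent.P372

theorem result :
    (∀ (A B : Type) [Fintype A] [DecidableEq A] [Fintype B] [DecidableEq B]
      (ρ : Matrix (A × B) (A × B) ℂ) (a b : ℝ), 0 < a → a ≤ b →
      (ρ - (a : ℂ) • 1).PosSemidef → ((b : ℂ) • 1 - ρ).PosSemidef →
      ∀ (k N : ℕ) (C : ℝ), 0 ≤ C → C * b ^ k ≤ (C + 1) * a ^ k →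
        3 * b ^ (k * N) ≤ 4 * a ^ (k * N) → NoKey (tpow k ρ) N (Cond C) (Cond C)) ∧
    (∀ (A : Type) [Fintype A] [DecidableEq A] (M : ℕ) (V : Set (Matrix A A ℂ)),
      Blocks M V → Cond (2 * M - 1) V) ∧
    (∀ d : ℕ, 3 ≤ d → ∃ ρ : Matrix (Fin d × Fin d) (Fin d × Fin d) ℂ,
      ρ.PosDef ∧ ρ.trace = 1 ∧ ¬ IsSep ρ ∧
      (∀ N, 9 * N ≤ d → NoKey ρ N (fun V => Split V ∨ RealBasis V ∨ Cond ((2 * d - 3) / 4) V)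
        (fun V => Split V ∨ RealBasis V ∨ Cond ((2 * d - 3) / 4) V)) ∧
      ∀ (k N : ℕ) (C : ℝ), 0 ≤ C → C * (1 + 4 / d) ^ k ≤ C + 1 →
        3 * (1 + 4 / d : ℝ) ^ (k * N) ≤ 4 → NoKey (tpow k ρ) N (Cond C) (Cond C)) ∧
    ∃ ρ : Matrix (Fin 4 × Fin 4) (Fin 4 × Fin 4) ℂ, ρ.PosDef ∧ (pTrans ρ).PosDef ∧ ρ.trace = 1 ∧
      ¬ IsSep ρ ∧ NoKey ρ 0 Split1 Split1 :=
  ⟨fun _ _ _ _ _ _ _ _ _ ha hab h1 h2 k N _ hC0 hC hN =>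
      PC.ball_blocks ha hab h1 h2 k N hC0 hC hN,
    fun _ _ _ _ _ h => PC.Blocks.cond h, PC.werner_res, PC.ppt_res⟩

end Vale.Agent.Results.P372.MeasuredCopies
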