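import Vale.Agent.P372.Metro.Defs
import Vale.Agent.P372.Metro.Equiv2

open Matrix Kronecker
open scoped ComplexOrder

namespace Vale.Agent.Results.P372.Metrology

open Vale.Agent.P372

theorem result (A B E : Type) [Fintype A] [DecidableEq A] [Fintype B] [DecidableEq B] [Fintype E]
    [DecidableEq E] (Ψ : Matrix (A × B) E ℂ) (hΨ : (Ψ * Ψᴴ).trace = 1) :
    (∀ r : ℝ, 8 ≤ r → r < 16 →
      (0 < distillableKey Ψ ↔ ∃ (n : ℕ) (C D : Type) (_ : Fintype C) (_ : DecidableEq C)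
        (_ : Fintype D) (_ : DecidableEq D) (X : Matrix C (Fin n → A) ℂ)
        (Y : Matrix D (Fin n → B) ℂ) (a : Matrix C C ℂ) (b : Matrix D D ℂ), 1 ≤ n ∧
        (1 - a).PosSemidef ∧ (1 + a).PosSemidef ∧ (1 - b).PosSemidef ∧ (1 + b).PosSemidef ∧
        r * (filtered n (Ψ * Ψᴴ) X Y).trace.re <
          qfi (filtered n (Ψ * Ψᴴ) X Y) (a ⊗ₖ 1 + 1 ⊗ₖ b))) ∧
    (∀ c : ℝ, 0 < c → c ≤ 1 / 2 →
      (0 < distillableKey Ψ ↔ ∃ (n : ℕ) (C D : Type) (_ : Fintype C) (_ : DecidableEq C)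
        (_ : Fintype D) (_ : DecidableEq D) (X : Matrix C (Fin n → A) ℂ)
        (Y : Matrix D (Fin n → B) ℂ) (a : Matrix C C ℂ) (b : Matrix D D ℂ), 1 ≤ n ∧
        a.IsHermitian ∧ b.IsHermitian ∧
        4 * ((filtered n (Ψ * Ψᴴ) X Y *
          ((a ⊗ₖ 1 + 1 ⊗ₖ b) * (a ⊗ₖ 1 + 1 ⊗ₖ b) - (4 * c : ℂ) • (a ⊗ₖ b))).trace.re) <
          qfi (filtered n (Ψ * Ψᴴ) X Y) (a ⊗ₖ 1 + 1 ⊗ₖ b))) ∧
    (∀ c : ℝ, 0 < c → c ≤ 1 / 2 →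
      (0 < distillableKey Ψ ↔ ∃ (n : ℕ) (X₀ X₁ : Matrix (Fin n → A) (Fin n → A) ℂ)
        (Y₀ Y₁ : Matrix (Fin n → B) (Fin n → B) ℂ),
        (weight (tpow n (Ψ * Ψᴴ)) X₀ Y₁ * weight (tpow n (Ψ * Ψᴴ)) X₁ Y₀) ^ c *
          (weight (tpow n (Ψ * Ψᴴ)) X₀ Y₀ * weight (tpow n (Ψ * Ψᴴ)) X₁ Y₁) ^ (1 - c) <
          traceNorm ((X₀ ⊗ₖ Y₀) * (tpow n (Ψ * Ψᴴ)) * (X₁ ⊗ₖ Y₁)ᴴ) ^ 2)) :=
  ⟨fun _ h h' => Metro.useful_iff Ψ hΨ h h', fun _ h h' => Metro.cov_iff Ψ hΨ h h',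
    fun _ h h' => Metro.test_iff Ψ hΨ h h'⟩

end Vale.Agent.Results.P372.Metrology
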